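import Vale.Agent.P040.Grid

namespace Vale.Agent.P040

open Finset

/-- monochromatic strictly increasing pairs of cells of an `m x n` grid -/
def monoPairs {m n : ℕ} (σ : Fin m → Fin n → Bool) :
    Finset ((Fin m × Fin n) × (Fin m × Fin n)) :=
  univ.filter (fun p => p.1.1 < p.2.1 ∧ p.1.2 < p.2.2 ∧ σ p.1.1 p.1.2 = σ p.2.1 p.2.2)

/-- extension of a colouring of the square grid to all of `ℕ x ℕ` -/
def ext {n : ℕ} (σ : Fin n → Fin n → Bool) : ℕ → ℕ → Bool :=
  fun i j => if h : i < n ∧ j < n then σ ⟨i, h.1⟩ ⟨j, h.2⟩ else false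

lemma ext_val {n : ℕ} (σ : Fin n → Fin n → Bool) (i j : Fin n) : ext σ i.val j.val = σ i j := by
  simp [ext, i.isLt, j.isLt]

lemma card_monoPairs_eq (N : ℕ) (σ : Fin (N+1) → Fin (N+1) → Bool) :
    (monoPairs σ).card = (monoEdges N (ext σ)).card := by
  apply Finset.card_bij (fun p _ => (p.1.1.val, p.1.2.val, p.2.1.val, p.2.2.val))
  · rintro ⟨⟨a, b⟩, ⟨c, d⟩⟩ h
    simp only [monoPairs, mem_filter, mem_univ, true_and] at h
    simp only [monoEdges, mem_filter, mem_edges, ext_val]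
    refine ⟨⟨h.1, h.2.1, ?_, ?_⟩, h.2.2⟩
    · have := c.isLt; omega
    · have := d.isLt; omega
  · rintro ⟨⟨a, b⟩, ⟨c, d⟩⟩ _ ⟨⟨a', b'⟩, ⟨c', d'⟩⟩ _ h
    simp only [Prod.mk.injEq] at h
    obtain ⟨h1, h2, h3, h4⟩ := h
    simp only [Prod.mk.injEq]
    exact ⟨⟨Fin.ext h1, Fin.ext h2⟩, Fin.ext h3, Fin.ext h4⟩
  · rintro ⟨a, b, c, d⟩ h
    simp only [monoEdges, mem_filter, mem_edges] at h
    obtain ⟨⟨h1, h2, h3, h4⟩, h5⟩ := h
    refine ⟨((⟨a, by omega⟩, ⟨b, by omega⟩), (⟨c, by omega⟩, ⟨d, by omega⟩)), ?_, rfl⟩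
    simp only [monoPairs, mem_filter, mem_univ, true_and]
    refine ⟨h1, h2, ?_⟩
    have e1 := ext_val σ ⟨a, by omega⟩ ⟨b, by omega⟩
    have e2 := ext_val σ ⟨c, by omega⟩ ⟨d, by omega⟩
    simp only at e1 e2
    rw [← e1, ← e2, h5]

theorem square_lower (n : ℕ) (σ : Fin n → Fin n → Bool) :
    n * (n - 1) ^ 2 * (n - 2) ≤ 12 * (monoPairs σ).card := by
  rcases n with _ | N
  · simp
  rcases N with _ | N
  · simp
  have h := mono_lower_Z (N+1) (ext σ)
  rw [← card_monoPairs_eq] at h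
  have h' : ((N + 1 + 1) * (N + 1 + 1 - 1) ^ 2 * (N + 1 + 1 - 2) : ℕ) = (N+2) * (N+1)^2 * N := by
    simp
  rw [h']
  have : (((N+2) * (N+1)^2 * N : ℕ) : ℤ) ≤ ((12 * (monoPairs σ).card : ℕ) : ℤ) := by
    push_cast at h ⊢
    linarith
  exact_mod_cast this

theorem square_attained (n : ℕ) : ∃ σ : Fin n → Fin n → Bool,
    12 * (monoPairs σ).card = n * (n - 1) ^ 2 * (n - 2) := by
  rcases n with _ | N
  · exact ⟨fun _ _ => false, by simp [monoPairs]⟩
  refine ⟨fun i j => stair N i.val j.val, ?_⟩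
  have hcard : (monoPairs (fun (i j : Fin (N+1)) => stair N i.val j.val)).card
      = (monoEdges N (stair N)).card := by
    rw [card_monoPairs_eq]
    unfold monoEdges
    apply congrArg
    apply Finset.filter_congr
    rintro ⟨a, b, c, d⟩ h
    rw [mem_edges] at h
    have e1 : ext (fun (i j : Fin (N+1)) => stair N i.val j.val) a b = stair N a b := by
      simp only [ext]; rw [dif_pos (by omega)]
    have e2 : ext (fun (i j : Fin (N+1)) => stair N i.val j.val) c d = stair N c d := by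
      simp only [ext]; rw [dif_pos (by omega)]
    simp only [e1, e2]
  rw [hcard]
  have h := mono_stair_Z N
  rcases N with _ | N
  · simp at h ⊢
    exact_mod_cast h
  have h' : ((N + 1 + 1) * (N + 1 + 1 - 1) ^ 2 * (N + 1 + 1 - 2) : ℕ) = (N+2) * (N+1)^2 * N := by
    simp
  rw [h']
  have : ((12 * (monoEdges (N+1) (stair (N+1))).card : ℕ) : ℤ) = (((N+2) * (N+1)^2 * N : ℕ) : ℤ) := by
    push_cast at h ⊢
    linarith
  exact_mod_cast this

end Vale.Agent.P040
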