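import Mathlib

namespace Vale.Agent.P040

open Finset

/-- comparable pairs of cells of the grid `{0..N} x {0..N}`: `(a,b,c,d)` stands for `(a,b) < (c,d)`. -/
def edges (N : ℕ) : Finset (ℕ × ℕ × ℕ × ℕ) :=
  ((range (N+1)) ×ˢ (range (N+1)) ×ˢ (range (N+1)) ×ˢ (range (N+1))).filter
    (fun e => e.1 < e.2.2.1 ∧ e.2.1 < e.2.2.2)

def monoEdges (N : ℕ) (σ : ℕ → ℕ → Bool) : Finset (ℕ × ℕ × ℕ × ℕ) :=
  (edges N).filter (fun e => σ e.1 e.2.1 = σ e.2.2.1 e.2.2.2)

/-- `(i,j,k,l)` with `i<k`, `j<l`, `k+l<s`. -/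
def T4 (s : ℕ) : Finset (ℕ × ℕ × ℕ × ℕ) :=
  ((range s) ×ˢ (range s) ×ˢ (range s) ×ˢ (range s)).filter
    (fun e => e.1 < e.2.2.1 ∧ e.2.1 < e.2.2.2 ∧ e.2.2.1 + e.2.2.2 < s)

lemma mem_edges {N a b c d : ℕ} :
    (a,b,c,d) ∈ edges N ↔ a < c ∧ b < d ∧ c ≤ N ∧ d ≤ N := by
  simp only [edges, mem_filter, mem_product, mem_range]
  constructor
  · rintro ⟨⟨_, _, _, _⟩, _, _⟩; omega
  · rintro ⟨_, _, _, _⟩; omega

lemma mem_T4 {s a b c d : ℕ} :
    (a,b,c,d) ∈ T4 s ↔ a < c ∧ b < d ∧ c + d < s := by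
  simp only [T4, mem_filter, mem_product, mem_range]
  constructor
  · rintro ⟨⟨_, _, _, _⟩, _, _, _⟩; omega
  · rintro ⟨_, _, _⟩; omega

/-- the triangles: first flag false = type I (middle weakly below the antidiagonal),
second flag false = variant L. -/
def tris (N : ℕ) : Finset (Bool × Bool × ℕ × ℕ × ℕ × ℕ) :=
  (({false} : Finset Bool) ×ˢ (univ : Finset Bool) ×ˢ T4 (N+1)) ∪
  (({true} : Finset Bool) ×ˢ (univ : Finset Bool) ×ˢ T4 N)

lemma mem_tris {N : ℕ} {t1 t2 : Bool} {i j k l : ℕ} :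
    (t1,t2,i,j,k,l) ∈ tris N ↔ i < k ∧ j < l ∧ (if t1 then k + l < N else k + l ≤ N) := by
  cases t1 <;> simp [tris, mem_T4]

lemma card_tris (N : ℕ) : (tris N).card = 2 * (T4 (N+1)).card + 2 * (T4 N).card := by
  unfold tris
  rw [card_union_of_disjoint]
  · simp [card_product]
  · rw [Finset.disjoint_left]
    rintro ⟨t1, x⟩ h1 h2
    simp only [mem_product, mem_singleton] at h1 h2
    rw [h1.1] at h2
    exact absurd h2.1 (by simp)

/-- first, second, third vertex of a triangle -/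
def v1 (N : ℕ) : Bool × Bool × ℕ × ℕ × ℕ × ℕ → ℕ × ℕ
  | (false, _, i, j, _, _) => (i, j)
  | (true, false, i, j, k, l) => (l - j - 1, N + i - k - l)
  | (true, true, i, j, k, l) => (N + j - k - l, k - i - 1)

def v2 (N : ℕ) : Bool × Bool × ℕ × ℕ × ℕ × ℕ → ℕ × ℕ
  | (false, _, _, _, k, l) => (k, l)
  | (true, _, _, _, k, l) => (N - k, N - l)

def v3 (N : ℕ) : Bool × Bool × ℕ × ℕ × ℕ × ℕ → ℕ × ℕ
  | (false, false, i, j, k, l) => (N + 1 + j - l, l + k - i)
  | (false, true, i, j, k, l) => (k + l - j, N + 1 + i - k)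
  | (true, _, i, j, _, _) => (N - i, N - j)

def mkE (u v : ℕ × ℕ) : ℕ × ℕ × ℕ × ℕ := (u.1, u.2, v.1, v.2)

/-- the three flags (edge, view) of a triangle -/
def f12 (N : ℕ) (T : Bool × Bool × ℕ × ℕ × ℕ × ℕ) : (ℕ × ℕ × ℕ × ℕ) × Bool :=
  (mkE (v1 N T) (v2 N T), xor T.1 T.2.1)
def f23 (N : ℕ) (T : Bool × Bool × ℕ × ℕ × ℕ × ℕ) : (ℕ × ℕ × ℕ × ℕ) × Bool :=
  (mkE (v2 N T) (v3 N T), T.2.1)
def f13 (N : ℕ) (T : Bool × Bool × ℕ × ℕ × ℕ × ℕ) : (ℕ × ℕ × ℕ × ℕ) × Bool :=
  (mkE (v1 N T) (v3 N T), !(xor T.1 T.2.1))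

/-- recover the triangle from a flag -/
def psi (N : ℕ) : (ℕ × ℕ × ℕ × ℕ) × Bool → Bool × Bool × ℕ × ℕ × ℕ × ℕ
  | ((a, b, c, d), w) =>
    if c + d ≤ N then (false, w, a, b, c, d)
    else if N + 1 ≤ a + b then (true, w, N - c, N - d, N - a, N - b)
    else if w = false then
      (if N + 1 ≤ c + b then
        (if d ≤ a + b then (false, false, a + b - d, b + c - N - 1, a, b)
         else (true, false, N - c, N - d, N + d - c - a - 1 - b, a + N + 1 - d))
       else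
        (if N + 2 + a ≤ c + d then (false, true, a, b, N + 1 + a - d, c + d + b - N - 1 - a)
         else (true, true, N - c - 1 - b, a + N - c - d, N - c, N - d)))
    else
      (if N + 1 ≤ a + d then
        (if c ≤ a + b then (false, true, d + a - N - 1, a + b - c, a, b)
         else (true, true, N - c, N - d, b + N + 1 - c, N + c - d - b - 1 - a))
       else
        (if N + 2 + b ≤ c + d then (false, false, a, b, c + d + a - N - 1 - b, N + 1 + b - c)
         else (true, false, b + N - c - d, N - d - 1 - a, N - c, N - d)))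


lemma psi_f12 {N : ℕ} {T : Bool × Bool × ℕ × ℕ × ℕ × ℕ} (hT : T ∈ tris N) :
    psi N (f12 N T) = T := by
  obtain ⟨t1, t2, i, j, k, l⟩ := T
  rw [mem_tris] at hT
  obtain ⟨h1, h2, h3⟩ := hT
  cases t1 <;> cases t2 <;> simp only [Bool.false_eq_true, if_false, if_true] at h3 <;>
  simp only [f12, v1, v2, mkE, Bool.xor_false, Bool.xor_true, Bool.not_false, Bool.not_true] <;>
  simp only [psi, Bool.true_eq_false, if_false, if_true] <;>
  split_ifs <;> first | omega | rfl | (simp only [Prod.mk.injEq, true_and, and_true]; omega)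

lemma psi_f23 {N : ℕ} {T : Bool × Bool × ℕ × ℕ × ℕ × ℕ} (hT : T ∈ tris N) :
    psi N (f23 N T) = T := by
  obtain ⟨t1, t2, i, j, k, l⟩ := T
  rw [mem_tris] at hT
  obtain ⟨h1, h2, h3⟩ := hT
  cases t1 <;> cases t2 <;> simp only [Bool.false_eq_true, if_false, if_true] at h3 <;>
  simp only [f23, v2, v3, mkE, Bool.xor_false, Bool.xor_true, Bool.not_false, Bool.not_true] <;>
  simp only [psi, Bool.true_eq_false, if_false, if_true] <;>
  split_ifs <;> first | omega | rfl | (simp only [Prod.mk.injEq, true_and, and_true]; omega)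

lemma psi_f13 {N : ℕ} {T : Bool × Bool × ℕ × ℕ × ℕ × ℕ} (hT : T ∈ tris N) :
    psi N (f13 N T) = T := by
  obtain ⟨t1, t2, i, j, k, l⟩ := T
  rw [mem_tris] at hT
  obtain ⟨h1, h2, h3⟩ := hT
  cases t1 <;> cases t2 <;> simp only [Bool.false_eq_true, if_false, if_true] at h3 <;>
  simp only [f13, v1, v3, mkE, Bool.xor_false, Bool.xor_true, Bool.not_false, Bool.not_true] <;>
  simp only [psi, Bool.true_eq_false, if_false, if_true] <;>
  split_ifs <;> first | omega | rfl | (simp only [Prod.mk.injEq, true_and, and_true]; omega)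

lemma f12_mem {N : ℕ} {T : Bool × Bool × ℕ × ℕ × ℕ × ℕ} (hT : T ∈ tris N) :
    (f12 N T).1 ∈ edges N := by
  obtain ⟨t1, t2, i, j, k, l⟩ := T
  rw [mem_tris] at hT
  obtain ⟨h1, h2, h3⟩ := hT
  cases t1 <;> cases t2 <;> simp only [Bool.false_eq_true, if_false, if_true] at h3 <;>
  simp only [f12, v1, v2, mkE, mem_edges] <;> omega

lemma f23_mem {N : ℕ} {T : Bool × Bool × ℕ × ℕ × ℕ × ℕ} (hT : T ∈ tris N) :
    (f23 N T).1 ∈ edges N := by
  obtain ⟨t1, t2, i, j, k, l⟩ := T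
  rw [mem_tris] at hT
  obtain ⟨h1, h2, h3⟩ := hT
  cases t1 <;> cases t2 <;> simp only [Bool.false_eq_true, if_false, if_true] at h3 <;>
  simp only [f23, v2, v3, mkE, mem_edges] <;> omega

lemma f13_mem {N : ℕ} {T : Bool × Bool × ℕ × ℕ × ℕ × ℕ} (hT : T ∈ tris N) :
    (f13 N T).1 ∈ edges N := by
  obtain ⟨t1, t2, i, j, k, l⟩ := T
  rw [mem_tris] at hT
  obtain ⟨h1, h2, h3⟩ := hT
  cases t1 <;> cases t2 <;> simp only [Bool.false_eq_true, if_false, if_true] at h3 <;>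
  simp only [f13, v1, v3, mkE, mem_edges] <;> omega

/-- choose a monochromatic edge of the triangle, with its view -/
def pick (N : ℕ) (σ : ℕ → ℕ → Bool) (T : Bool × Bool × ℕ × ℕ × ℕ × ℕ) : (ℕ × ℕ × ℕ × ℕ) × Bool :=
  if σ (v1 N T).1 (v1 N T).2 = σ (v2 N T).1 (v2 N T).2 then f12 N T
  else if σ (v2 N T).1 (v2 N T).2 = σ (v3 N T).1 (v3 N T).2 then f23 N T
  else f13 N T

lemma psi_pick {N : ℕ} (σ : ℕ → ℕ → Bool) {T : Bool × Bool × ℕ × ℕ × ℕ × ℕ} (hT : T ∈ tris N) :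
    psi N (pick N σ T) = T := by
  unfold pick
  split_ifs
  · exact psi_f12 hT
  · exact psi_f23 hT
  · exact psi_f13 hT

lemma pick_mem {N : ℕ} (σ : ℕ → ℕ → Bool) {T : Bool × Bool × ℕ × ℕ × ℕ × ℕ} (hT : T ∈ tris N) :
    pick N σ T ∈ monoEdges N σ ×ˢ (univ : Finset Bool) := by
  rw [mem_product]
  refine ⟨?_, mem_univ _⟩
  unfold pick monoEdges
  rw [mem_filter]
  split_ifs with h1 h2
  · exact ⟨f12_mem hT, h1⟩
  · exact ⟨f23_mem hT, h2⟩
  · refine ⟨f13_mem hT, ?_⟩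
    simp only [f13, mkE]
    revert h1 h2
    cases σ (v1 N T).1 (v1 N T).2 <;> cases σ (v2 N T).1 (v2 N T).2 <;>
      cases σ (v3 N T).1 (v3 N T).2 <;> simp

theorem card_tris_le (N : ℕ) (σ : ℕ → ℕ → Bool) :
    (tris N).card ≤ 2 * (monoEdges N σ).card := by
  have h := Finset.card_le_card_of_injOn (s := tris N)
    (t := monoEdges N σ ×ˢ (univ : Finset Bool)) (pick N σ)
    (fun T hT => pick_mem σ hT)
    (fun T hT T' hT' h => by
      have h1 := psi_pick σ hT
      have h2 := psi_pick σ hT'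
      rw [← h1, ← h2, h])
  rw [card_product] at h
  simp only [Fintype.card_bool, card_univ] at h
  omega

lemma card_T4_sum (s : ℕ) : (T4 s).card = ∑ k ∈ range s, ∑ l ∈ range (s - k), k * l := by
  have h : (T4 s).card = ((range s).sigma (fun k => (range (s-k)).sigma
      (fun l => range k ×ˢ range l))).card := by
    apply Finset.card_bij'
      (i := fun e _ => (⟨e.2.2.1, ⟨e.2.2.2, (e.1, e.2.1)⟩⟩ : Σ _ : ℕ, Σ _ : ℕ, ℕ × ℕ))
      (j := fun x _ => (x.2.2.1, x.2.2.2, x.1, x.2.1))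
    · rintro ⟨a, b, c, d⟩ h
      rw [mem_T4] at h
      simp only [mem_sigma, mem_range, mem_product]
      omega
    · rintro ⟨k, l, i, j⟩ h
      simp only [mem_sigma, mem_range, mem_product] at h
      show (i, j, k, l) ∈ T4 s
      rw [mem_T4]
      omega
    · rintro ⟨a, b, c, d⟩ _
      rfl
    · rintro ⟨k, l, i, j⟩ _
      rfl
  rw [h]
  simp [Finset.card_sigma]

lemma sum_id_Z (t : ℕ) : 2 * ∑ l ∈ range t, (l : ℤ) = (t : ℤ) * (t - 1) := by
  induction t with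
  | zero => simp
  | succ t ih => rw [sum_range_succ, mul_add, ih]; push_cast; ring

lemma sum_poly_Z (s : ℤ) (a : ℕ) :
    12 * ∑ k ∈ range a, (k : ℤ) * (s - k) * (s - k - 1)
      = 6 * (s^2 - s) * a * (a - 1) + 2 * (1 - 2 * s) * (a - 1) * a * (2 * a - 1)
        + 3 * a^2 * (a - 1)^2 := by
  induction a with
  | zero => simp
  | succ a ih => rw [sum_range_succ, mul_add, ih]; push_cast; ring

lemma card_T4_Z (s : ℕ) : (24 : ℤ) * (T4 s).card = ((s : ℤ) + 1) * s * (s - 1) * (s - 2) := by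
  rw [card_T4_sum]
  push_cast
  have h1 : ∀ k ∈ range s, (∑ l ∈ range (s - k), (k : ℤ) * (l : ℤ)) * 2
      = (k : ℤ) * ((s : ℤ) - k) * ((s : ℤ) - k - 1) := by
    intro k hk
    rw [mem_range] at hk
    rw [← mul_sum, mul_assoc, mul_comm _ (2 : ℤ), sum_id_Z]
    rw [Nat.cast_sub hk.le]
    ring
  have h2 : (∑ k ∈ range s, ∑ l ∈ range (s - k), (k : ℤ) * (l : ℤ)) * 2
      = ∑ k ∈ range s, (k : ℤ) * ((s : ℤ) - k) * ((s : ℤ) - k - 1) := by
    rw [sum_mul]
    exact sum_congr rfl h1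
  have h3 := sum_poly_Z (s : ℤ) s
  rw [← h2] at h3
  linear_combination h3


/-- the lower bound in closed form (over the integers) -/
theorem mono_lower_Z (N : ℕ) (σ : ℕ → ℕ → Bool) :
    ((N : ℤ) + 1) * N ^ 2 * (N - 1) ≤ 12 * (monoEdges N σ).card := by
  have h1 := card_tris_le N σ
  rw [card_tris] at h1
  have h2 := card_T4_Z (N + 1)
  have h3 := card_T4_Z N
  have h4 : ((T4 (N+1)).card : ℤ) + (T4 N).card ≤ (monoEdges N σ).card := by
    have : (T4 (N+1)).card + (T4 N).card ≤ (monoEdges N σ).card := by omega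
    exact_mod_cast this
  push_cast at h2
  nlinarith [h2, h3, h4]

/-- the staircase colouring -/
def stair (N : ℕ) : ℕ → ℕ → Bool := fun k l => decide (k + l ≤ N)

lemma monoEdges_stair (N : ℕ) :
    (monoEdges N (stair N)).card = (T4 (N+1)).card + (T4 N).card := by
  have hsplit : monoEdges N (stair N) =
      T4 (N+1) ∪ (edges N).filter (fun e => N + 1 ≤ e.1 + e.2.1) := by
    ext ⟨a, b, c, d⟩
    simp only [monoEdges, stair, mem_filter, mem_union, mem_edges, mem_T4, decide_eq_decide]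
    constructor
    · rintro ⟨⟨h1, h2, h3, h4⟩, h5⟩
      by_cases h : c + d ≤ N
      · left; omega
      · right
        refine ⟨⟨h1, h2, h3, h4⟩, ?_⟩
        by_contra h6
        exact h (h5.mp (by omega))
    · rintro (⟨h1, h2, h3⟩ | ⟨⟨h1, h2, h3, h4⟩, h5⟩)
      · exact ⟨by omega, by constructor <;> intro <;> omega⟩
      · exact ⟨⟨h1, h2, h3, h4⟩, by constructor <;> intro <;> omega⟩
  rw [hsplit, card_union_of_disjoint]
  · congr 1
    apply Finset.card_bij'
      (i := fun e _ => (N - e.2.2.1, N - e.2.2.2, N - e.1, N - e.2.1))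
      (j := fun e _ => (N - e.2.2.1, N - e.2.2.2, N - e.1, N - e.2.1))
    · rintro ⟨a, b, c, d⟩ h
      simp only [mem_filter, mem_edges] at h
      simp only [mem_T4]
      omega
    · rintro ⟨a, b, c, d⟩ h
      simp only [mem_T4] at h
      simp only [mem_filter, mem_edges]
      omega
    · rintro ⟨a, b, c, d⟩ h
      simp only [mem_filter, mem_edges] at h
      simp only [Prod.mk.injEq]
      omega
    · rintro ⟨a, b, c, d⟩ h
      simp only [mem_T4] at h
      simp only [Prod.mk.injEq]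
      omega
  · rw [Finset.disjoint_left]
    rintro ⟨a, b, c, d⟩ h1 h2
    simp only [mem_T4] at h1
    simp only [mem_filter, mem_edges] at h2
    omega

theorem mono_stair_Z (N : ℕ) :
    12 * ((monoEdges N (stair N)).card : ℤ) = ((N : ℤ) + 1) * N ^ 2 * (N - 1) := by
  rw [monoEdges_stair]
  have h2 := card_T4_Z (N + 1)
  have h3 := card_T4_Z N
  push_cast at h2 ⊢
  have h4 : 2 * (12 * (((T4 (N + 1)).card : ℤ) + ((T4 N).card : ℤ)))
      = 2 * (((N : ℤ) + 1) * N ^ 2 * (N - 1)) := by linear_combination h2 + h3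
  linarith

end Vale.Agent.P040
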