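import Vale.Agent.P040.FinGrid

namespace Vale.Agent.P040

open Finset

lemma mem_monoPairs {m n : ℕ} (σ : Fin m → Fin n → Bool) (a a' : Fin m) (b b' : Fin n) :
    ((a, b), (a', b')) ∈ monoPairs σ ↔ a < a' ∧ b < b' ∧ σ a b = σ a' b' := by
  simp [monoPairs]

/-- deleting column `c` -/
def delCol {m n : ℕ} (σ : Fin m → Fin (n+1) → Bool) (c : Fin (n+1)) : Fin m → Fin n → Bool :=
  fun i j => σ i (c.succAbove j)

lemma card_delCol {m n : ℕ} (σ : Fin m → Fin (n+1) → Bool) (c : Fin (n+1)) :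
    (monoPairs (delCol σ c)).card
      = ((monoPairs σ).filter (fun p => p.1.2 ≠ c ∧ p.2.2 ≠ c)).card := by
  apply Finset.card_bij
    (fun p _ => ((p.1.1, c.succAbove p.1.2), (p.2.1, c.succAbove p.2.2)))
  · rintro ⟨⟨a, b⟩, ⟨a', b'⟩⟩ h
    rw [mem_monoPairs] at h
    rw [mem_filter, mem_monoPairs]
    exact ⟨⟨h.1, (Fin.strictMono_succAbove c) h.2.1, h.2.2⟩,
      Fin.succAbove_ne c b, Fin.succAbove_ne c b'⟩
  · rintro ⟨⟨a, b⟩, ⟨a', b'⟩⟩ _ ⟨⟨x, y⟩, ⟨x', y'⟩⟩ _ h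
    simp only [Prod.mk.injEq] at h ⊢
    exact ⟨⟨h.1.1, Fin.succAbove_right_injective h.1.2⟩, h.2.1,
      Fin.succAbove_right_injective h.2.2⟩
  · rintro ⟨⟨a, b⟩, ⟨a', b'⟩⟩ h
    rw [mem_filter, mem_monoPairs] at h
    obtain ⟨⟨h1, h2, h3⟩, h4, h5⟩ := h
    obtain ⟨y, rfl⟩ := Fin.exists_succAbove_eq h4
    obtain ⟨y', rfl⟩ := Fin.exists_succAbove_eq h5
    refine ⟨((a, y), (a', y')), ?_, rfl⟩
    rw [mem_monoPairs]
    exact ⟨h1, (Fin.strictMono_succAbove c).lt_iff_lt.mp h2, h3⟩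

lemma sum_delCol {m n : ℕ} (σ : Fin m → Fin (n+1) → Bool) :
    ∑ c : Fin (n+1), (monoPairs (delCol σ c)).card = (n - 1) * (monoPairs σ).card := by
  simp_rw [card_delCol, card_filter]
  rw [sum_comm]
  have : ∀ p ∈ monoPairs σ,
      (∑ c : Fin (n+1), if p.1.2 ≠ c ∧ p.2.2 ≠ c then 1 else 0) = n - 1 := by
    intro p hp
    simp only [monoPairs, mem_filter, mem_univ, true_and] at hp
    rw [← card_filter]
    have hne : p.1.2 ≠ p.2.2 := ne_of_lt hp.2.1
    have : (univ.filter (fun c : Fin (n+1) => p.1.2 ≠ c ∧ p.2.2 ≠ c))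
        = univ \ {p.1.2, p.2.2} := by
      ext c
      simp only [mem_filter, mem_univ, true_and, mem_sdiff, mem_insert, mem_singleton, not_or]
      constructor
      · rintro ⟨h1, h2⟩; exact ⟨fun h => h1 h.symm, fun h => h2 h.symm⟩
      · rintro ⟨h1, h2⟩; exact ⟨fun h => h1 h.symm, fun h => h2 h.symm⟩
    rw [this, card_sdiff_of_subset (subset_univ _), card_univ, Fintype.card_fin, card_pair hne]
    omega
  rw [sum_congr rfl this, sum_const, smul_eq_mul, mul_comm]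

theorem rect_lower (m : ℕ) (hm : 2 ≤ m) : ∀ n, m ≤ n → ∀ σ : Fin m → Fin n → Bool,
    (m - 1) * (m - 2) * (n * (n - 1)) ≤ 12 * (monoPairs σ).card := by
  intro n hn
  induction n, hn using Nat.le_induction with
  | base =>
    intro σ
    have h := square_lower m σ
    calc (m - 1) * (m - 2) * (m * (m - 1)) = m * (m - 1) ^ 2 * (m - 2) := by ring
      _ ≤ _ := h
  | succ n hn ih =>
    intro σ
    have h1 := sum_delCol σ
    have h2 : ∑ c : Fin (n+1), (m - 1) * (m - 2) * (n * (n - 1))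
        ≤ ∑ c : Fin (n+1), 12 * (monoPairs (delCol σ c)).card :=
      sum_le_sum (fun c _ => ih (delCol σ c))
    rw [← mul_sum (f := fun c => (monoPairs (delCol σ c)).card), h1, sum_const, card_univ,
      Fintype.card_fin, smul_eq_mul] at h2
    have hpos : 0 < n - 1 := by omega
    have h3 : (n - 1) * ((m - 1) * (m - 2) * ((n + 1) * (n + 1 - 1)))
        ≤ (n - 1) * (12 * (monoPairs σ).card) := by
      calc (n - 1) * ((m - 1) * (m - 2) * ((n + 1) * (n + 1 - 1)))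
          = (n + 1) * ((m - 1) * (m - 2) * (n * (n - 1))) := by
            simp only [Nat.add_sub_cancel]; ring
        _ ≤ 12 * ((n - 1) * (monoPairs σ).card) := h2
        _ = (n - 1) * (12 * (monoPairs σ).card) := by ring
    exact Nat.le_of_mul_le_mul_left h3 hpos

lemma card_transpose {m n : ℕ} (σ : Fin m → Fin n → Bool) :
    (monoPairs (fun j i => σ i j)).card = (monoPairs σ).card := by
  refine Finset.card_bij' (fun p _ => ((p.1.2, p.1.1), (p.2.2, p.2.1)))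
    (fun p _ => ((p.1.2, p.1.1), (p.2.2, p.2.1))) ?_ ?_ ?_ ?_
  · rintro ⟨⟨a, b⟩, ⟨a', b'⟩⟩ h
    rw [mem_monoPairs] at h
    show ((b, a), (b', a')) ∈ monoPairs σ
    rw [mem_monoPairs]
    exact ⟨h.2.1, h.1, h.2.2⟩
  · rintro ⟨⟨a, b⟩, ⟨a', b'⟩⟩ h
    rw [mem_monoPairs] at h
    show ((b, a), (b', a')) ∈ monoPairs (fun j i => σ i j)
    rw [mem_monoPairs]
    exact ⟨h.2.1, h.1, h.2.2⟩
  · rintro ⟨⟨a, b⟩, ⟨a', b'⟩⟩ _; rfl
  · rintro ⟨⟨a, b⟩, ⟨a', b'⟩⟩ _; rfl

/-- natural number model of a rectangular grid -/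
def edgesR (M N : ℕ) : Finset (ℕ × ℕ × ℕ × ℕ) :=
  ((range (M+1)) ×ˢ (range (N+1)) ×ˢ (range (M+1)) ×ˢ (range (N+1))).filter
    (fun e => e.1 < e.2.2.1 ∧ e.2.1 < e.2.2.2)

def monoEdgesR (M N : ℕ) (σ : ℕ → ℕ → Bool) : Finset (ℕ × ℕ × ℕ × ℕ) :=
  (edgesR M N).filter (fun e => σ e.1 e.2.1 = σ e.2.2.1 e.2.2.2)

lemma mem_edgesR {M N a b c d : ℕ} :
    (a,b,c,d) ∈ edgesR M N ↔ a < c ∧ b < d ∧ c ≤ M ∧ d ≤ N := by
  simp only [edgesR, mem_filter, mem_product, mem_range]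
  constructor
  · rintro ⟨⟨_, _, _, _⟩, _, _⟩; omega
  · rintro ⟨_, _, _, _⟩; omega

def extR {m n : ℕ} (σ : Fin m → Fin n → Bool) : ℕ → ℕ → Bool :=
  fun i j => if h : i < m ∧ j < n then σ ⟨i, h.1⟩ ⟨j, h.2⟩ else false

lemma extR_val {m n : ℕ} (σ : Fin m → Fin n → Bool) (i : Fin m) (j : Fin n) :
    extR σ i.val j.val = σ i j := by
  simp [extR, i.isLt, j.isLt]

lemma card_monoPairs_eqR (M N : ℕ) (σ : Fin (M+1) → Fin (N+1) → Bool) :
    (monoPairs σ).card = (monoEdgesR M N (extR σ)).card := by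
  apply Finset.card_bij (fun p _ => (p.1.1.val, p.1.2.val, p.2.1.val, p.2.2.val))
  · rintro ⟨⟨a, b⟩, ⟨c, d⟩⟩ h
    rw [mem_monoPairs] at h
    simp only [monoEdgesR, mem_filter, mem_edgesR, extR_val]
    refine ⟨⟨h.1, h.2.1, ?_, ?_⟩, h.2.2⟩
    · have := c.isLt; omega
    · have := d.isLt; omega
  · rintro ⟨⟨a, b⟩, ⟨c, d⟩⟩ _ ⟨⟨a', b'⟩, ⟨c', d'⟩⟩ _ h
    simp only [Prod.mk.injEq] at h
    obtain ⟨h1, h2, h3, h4⟩ := h
    simp only [Prod.mk.injEq]
    exact ⟨⟨Fin.ext h1, Fin.ext h2⟩, Fin.ext h3, Fin.ext h4⟩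
  · rintro ⟨a, b, c, d⟩ h
    simp only [monoEdgesR, mem_filter, mem_edgesR] at h
    obtain ⟨⟨h1, h2, h3, h4⟩, h5⟩ := h
    refine ⟨((⟨a, by omega⟩, ⟨b, by omega⟩), (⟨c, by omega⟩, ⟨d, by omega⟩)), ?_, rfl⟩
    rw [mem_monoPairs]
    refine ⟨h1, h2, ?_⟩
    have e1 := extR_val σ ⟨a, by omega⟩ ⟨b, by omega⟩
    have e2 := extR_val σ ⟨c, by omega⟩ ⟨d, by omega⟩
    simp only at e1 e2
    rw [← e1, ← e2, h5]

/-- index set of the symmetric chains in a grid with three rows -/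
def Tr (N : ℕ) : Finset (ℕ × ℕ) :=
  ((range (N+1)) ×ˢ (range (N+1))).filter (fun e => e.1 < e.2 ∧ 2 * e.2 ≤ N + e.1)

lemma mem_Tr {N j l : ℕ} : (j, l) ∈ Tr N ↔ j < l ∧ 2 * l ≤ N + j := by
  simp only [Tr, mem_filter, mem_product, mem_range]
  constructor
  · rintro ⟨_, h⟩; exact h
  · rintro ⟨h1, h2⟩; omega

lemma card_Tr (N : ℕ) : (Tr N).card = ((N + 1) / 2) * (N / 2) := by
  induction N with
  | zero =>
    have : Tr 0 = ∅ := by
      ext ⟨j, l⟩
      rw [mem_Tr]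
      simp only [notMem_empty, iff_false]
      omega
    simp [this]
  | succ N ih =>
    have hsplit : Tr (N+1) = Tr N ∪ (range ((N+1)/2)).image (fun t => (N - 1 - 2 * t, N - t)) := by
      ext ⟨j, l⟩
      simp only [mem_union, mem_Tr, mem_image, mem_range, Prod.mk.injEq]
      constructor
      · rintro ⟨h1, h2⟩
        by_cases h : 2 * l ≤ N + j
        · left; exact ⟨h1, h⟩
        · right
          exact ⟨N - l, by omega, by omega, by omega⟩
      · rintro (⟨h1, h2⟩ | ⟨t, h1, h2, h3⟩)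
        · omega
        · omega
    rw [hsplit, card_union_of_disjoint, ih, card_image_of_injOn, card_range]
    · rcases Nat.even_or_odd' N with ⟨s, rfl | rfl⟩
      · have e1 : (2 * s + 1) / 2 = s := by omega
        have e2 : 2 * s / 2 = s := by omega
        have e3 : (2 * s + 1 + 1) / 2 = s + 1 := by omega
        rw [e1, e2, e3]; ring
      · have e1 : (2 * s + 1 + 1) / 2 = s + 1 := by omega
        have e2 : (2 * s + 1) / 2 = s := by omega
        have e3 : (2 * s + 1 + 1 + 1) / 2 = s + 1 := by omega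
        rw [e1, e2, e3]; ring
    · intro t ht t' ht' h
      simp only [coe_range, Set.mem_Iio] at ht ht'
      simp only [Prod.mk.injEq] at h
      omega
    · rw [Finset.disjoint_left]
      rintro ⟨j, l⟩ h1 h2
      rw [mem_Tr] at h1
      simp only [mem_image, mem_range, Prod.mk.injEq] at h2
      obtain ⟨t, h3, h4, h5⟩ := h2
      omega

def pick3 (σ : ℕ → ℕ → Bool) (e : ℕ × ℕ) : ℕ × ℕ × ℕ × ℕ :=
  if σ 0 e.1 = σ 1 e.2 then (0, e.1, 1, e.2)
  else if σ 1 e.2 = σ 2 (2 * e.2 - e.1) then (1, e.2, 2, 2 * e.2 - e.1)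
  else (0, e.1, 2, 2 * e.2 - e.1)

def psi3 : ℕ × ℕ × ℕ × ℕ → ℕ × ℕ
  | (a, b, c, d) => if a = 0 ∧ c = 1 then (b, d) else if a = 1 then (2 * b - d, b)
      else (b, (b + d) / 2)

theorem three_rows (N : ℕ) (σ : ℕ → ℕ → Bool) :
    ((N + 1) / 2) * (N / 2) ≤ (monoEdgesR 2 N σ).card := by
  rw [← card_Tr]
  apply Finset.card_le_card_of_injOn (pick3 σ)
  · rintro ⟨j, l⟩ h
    rw [mem_coe, mem_Tr] at h
    rw [mem_coe]
    unfold pick3 monoEdgesR
    rw [mem_filter]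
    split_ifs with h1 h2
    · exact ⟨mem_edgesR.mpr (by omega), h1⟩
    · exact ⟨mem_edgesR.mpr (by simp only; omega), h2⟩
    · refine ⟨mem_edgesR.mpr (by simp only; omega), ?_⟩
      simp only at h1 h2 ⊢
      revert h1 h2
      cases σ 0 j <;> cases σ 1 l <;> cases σ 2 (2 * l - j) <;> simp
  · have key : ∀ e ∈ Tr N, psi3 (pick3 σ e) = e := by
      rintro ⟨j, l⟩ h
      rw [mem_Tr] at h
      unfold pick3
      split_ifs
      · simp [psi3]
      · simp only [psi3, one_ne_zero, false_and, if_false, if_true, Prod.mk.injEq, and_true]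
        omega
      · simp only [psi3, true_and, OfNat.ofNat_ne_one, if_false, zero_ne_one, Prod.mk.injEq]
        omega
    intro e he e' he' h
    rw [← key e he, ← key e' he', h]

lemma zar_arith (m n : ℕ) (hm : 4 ≤ m) :
    12 * ((m / 2) * ((m - 1) / 2) * ((n / 2) * ((n - 1) / 2)))
      ≤ (m - 1) * (m - 2) * (n * (n - 1)) := by
  have key1 : ∀ c e : ℕ, 3 * (c + 2) * e ≤ (2 * c + 3) * (2 * e + 1) := by
    intro c e; nlinarith [Nat.zero_le (c * e)]
  have key2 : ∀ c b : ℕ, 3 * (c + 2) * b ≤ (2 * c + 3) * (2 * b + 1) := key1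
  rcases Nat.even_or_odd' m with ⟨a, rfl | rfl⟩
  · obtain ⟨c, rfl⟩ : ∃ c, a = c + 2 := ⟨a - 2, by omega⟩
    have m1 : 2 * (c + 2) / 2 = c + 2 := by omega
    have m2 : (2 * (c + 2) - 1) / 2 = c + 1 := by omega
    have m3 : 2 * (c + 2) - 1 = 2 * c + 3 := by omega
    have m4 : 2 * (c + 2) - 2 = 2 * (c + 1) := by omega
    rw [m1, m2, m3, m4]
    rcases Nat.even_or_odd' n with ⟨b, rfl | rfl⟩
    · rcases b with _ | e
      · simp
      have n1 : 2 * (e + 1) / 2 = e + 1 := by omega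
      have n2 : (2 * (e + 1) - 1) / 2 = e := by omega
      have n3 : 2 * (e + 1) - 1 = 2 * e + 1 := by omega
      rw [n1, n2, n3]
      calc 12 * ((c + 2) * (c + 1) * ((e + 1) * e))
          = 4 * (c + 1) * (e + 1) * (3 * (c + 2) * e) := by ring
        _ ≤ 4 * (c + 1) * (e + 1) * ((2 * c + 3) * (2 * e + 1)) :=
            Nat.mul_le_mul_left _ (key1 c e)
        _ = _ := by ring
    · have n1 : (2 * b + 1) / 2 = b := by omega
      have n2 : (2 * b + 1 - 1) / 2 = b := by omega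
      have n3 : 2 * b + 1 - 1 = 2 * b := by omega
      rw [n1, n2, n3]
      calc 12 * ((c + 2) * (c + 1) * (b * b))
          = 4 * (c + 1) * b * (3 * (c + 2) * b) := by ring
        _ ≤ 4 * (c + 1) * b * ((2 * c + 3) * (2 * b + 1)) :=
            Nat.mul_le_mul_left _ (key2 c b)
        _ = _ := by ring
  · obtain ⟨c, rfl⟩ : ∃ c, a = c + 2 := ⟨a - 2, by omega⟩
    have m1 : (2 * (c + 2) + 1) / 2 = c + 2 := by omega
    have m2 : (2 * (c + 2) + 1 - 1) / 2 = c + 2 := by omega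
    have m3 : 2 * (c + 2) + 1 - 1 = 2 * (c + 2) := by omega
    have m4 : 2 * (c + 2) + 1 - 2 = 2 * c + 3 := by omega
    rw [m1, m2, m3, m4]
    rcases Nat.even_or_odd' n with ⟨b, rfl | rfl⟩
    · rcases b with _ | e
      · simp
      have n1 : 2 * (e + 1) / 2 = e + 1 := by omega
      have n2 : (2 * (e + 1) - 1) / 2 = e := by omega
      have n3 : 2 * (e + 1) - 1 = 2 * e + 1 := by omega
      rw [n1, n2, n3]
      calc 12 * ((c + 2) * (c + 2) * ((e + 1) * e))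
          = 4 * (c + 2) * (e + 1) * (3 * (c + 2) * e) := by ring
        _ ≤ 4 * (c + 2) * (e + 1) * ((2 * c + 3) * (2 * e + 1)) :=
            Nat.mul_le_mul_left _ (key1 c e)
        _ = _ := by ring
    · have n1 : (2 * b + 1) / 2 = b := by omega
      have n2 : (2 * b + 1 - 1) / 2 = b := by omega
      have n3 : 2 * b + 1 - 1 = 2 * b := by omega
      rw [n1, n2, n3]
      calc 12 * ((c + 2) * (c + 2) * (b * b))
          = 4 * (c + 2) * b * (3 * (c + 2) * b) := by ring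
        _ ≤ 4 * (c + 2) * b * ((2 * c + 3) * (2 * b + 1)) :=
            Nat.mul_le_mul_left _ (key2 c b)
        _ = _ := by ring

lemma zar_sep_aux (m n : ℕ) (hmn : m ≤ n) (σ : Fin m → Fin n → Bool) :
    (m / 2) * ((m - 1) / 2) * ((n / 2) * ((n - 1) / 2)) ≤ (monoPairs σ).card := by
  rcases Nat.lt_or_ge m 3 with h | h
  · have : (m / 2) * ((m - 1) / 2) = 0 := by
      interval_cases m <;> simp
    rw [this]; simp
  rcases Nat.eq_or_lt_of_le h with h3 | h4
  · subst h3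
    obtain ⟨N, rfl⟩ : ∃ N, n = N + 1 := ⟨n - 1, by omega⟩
    rw [card_monoPairs_eqR 2 N]
    have := three_rows N (extR σ)
    simpa using this
  · have h1 := rect_lower m (by omega) n hmn σ
    have h2 := zar_arith m n h4
    omega

/-- the Zarankiewicz number bounds the number of monochromatic increasing pairs -/
theorem zar_sep (m n : ℕ) (σ : Fin m → Fin n → Bool) :
    (m / 2) * ((m - 1) / 2) * ((n / 2) * ((n - 1) / 2)) ≤ (monoPairs σ).card := by
  rcases le_total m n with h | h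
  · exact zar_sep_aux m n h σ
  · have := zar_sep_aux n m h (fun j i => σ i j)
    rw [card_transpose] at this
    calc (m / 2) * ((m - 1) / 2) * ((n / 2) * ((n - 1) / 2))
        = (n / 2) * ((n - 1) / 2) * ((m / 2) * ((m - 1) / 2)) := by ring
      _ ≤ _ := this

end Vale.Agent.P040
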